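import Vale.Agent.Lib.P217.Reduction

namespace Vale.Agent.Results.P217.ChaiReduction

/-- Reduction of the invariant-ideal question: in a noetherian local ring `R` acted on by a
group `G` through ring automorphisms, with `u 0, ..., u (n-1)` generating the maximal ideal and
`I_h = (u 0, ..., u (h-1))`, suppose that for every finite-index subgroup `H` and every `h`
with `h + 1 < n` the only `H`-invariant prime containing `I_h` and not containing `u h` is `I_h`.
Then every prime invariant under a finite-index subgroup is one of `I_0, ..., I_n`, and every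
`G`-invariant radical ideal is the unit ideal or one of `I_0, ..., I_n`. -/
theorem result {R : Type*} [CommRing R] [IsNoetherianRing R] [IsLocalRing R]
    {G : Type*} [Group G] [MulSemiringAction G R] (n : ℕ) (u : ℕ → R)
    (hmax : Ideal.span (u '' Set.Iio n) = IsLocalRing.maximalIdeal R)
    (hope : ∀ H : Subgroup G, H.FiniteIndex → ∀ h, h + 1 < n → ∀ Q : Ideal R, Q.IsPrime →
        (∀ g ∈ H, ∀ x ∈ Q, g • x ∈ Q) → Ideal.span (u '' Set.Iio h) ≤ Q → u h ∉ Q →
        Q = Ideal.span (u '' Set.Iio h)) :
    (∀ H : Subgroup G, H.FiniteIndex → ∀ Q : Ideal R, Q.IsPrime →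
        (∀ g ∈ H, ∀ x ∈ Q, g • x ∈ Q) → ∃ h ≤ n, Q = Ideal.span (u '' Set.Iio h)) ∧
    (∀ J : Ideal R, J.IsRadical → (∀ g : G, ∀ x ∈ J, g • x ∈ J) →
        J = ⊤ ∨ ∃ h ≤ n, J = Ideal.span (u '' Set.Iio h)) :=
  Vale.Agent.Lib.P217.chai_reduction' n u hmax hope

end Vale.Agent.Results.P217.ChaiReduction
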